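import Crest.Agent.X212.Cut21.Leaf

/-!
# X212 / Hlf24 (helper24): the conditions on the boundary data survive subdivision
-/

set_option autoImplicit false
set_option linter.unusedSectionVars false

open Finset Classical

noncomputable section

namespace Crest.Agent.X212.Hlf24

open Crest.Agent.X212.Hp13 Crest.Agent.X212.Alg36 Crest.Agent.X212.Cut21

section

variable {P : Type} [PartialOrder P] [Fintype P] {A : Set P} {z w : P → P → ℤ}

/-- the four conditions pass from `(A, z)` to `(B, w)` -/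
def Four {Q : Type} [PartialOrder Q] [Fintype Q] (A : Set P) (z : P → P → ℤ) (B : Set Q)
    (w : Q → Q → ℤ) : Prop :=
  (JO A z → JO B w) ∧ (BR A z → BR B w) ∧ (CP A z → CP B w) ∧ (CM A z → CM B w)

theorem four_eqv (hA : A.OrdConnected) (h : Eqv A z w) : Four A z A w := by
  have m : ∀ {x y}, y ∈ Om A → x ≤ y → w x y = z x y := fun hy k =>
    let ⟨_, _, ha, l⟩ := hy; (h.off (dp_hi ha k l) (om_dn hA hy k).1 hy.1).symm
  have p : ∀ {x y}, x ∈ Op A → x ≤ y → w x y = z x y := fun hx k =>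
    let ⟨_, _, ha, l⟩ := hx; (h.off (dp_lo ha l k) hx.1 (op_up hA hx k).1).symm
  refine ⟨fun a x y hy k => (m hy k).trans_le (a x y hy k), fun a o ho y hy k l => ?_,
    fun a o ho => ?_, fun a o ho => ?_⟩
  · convert a o ho y hy k (m hy k ▸ l) using 2
    ext y
    exact and_congr_right fun hy => and_congr_right fun k => by rw [m hy k]
  · have := a o ho
    induction this with
    | sut h1 h2 h3 h4 => exact .sut h1 h2 h3 h4
    | low h1 h2 h3 => exact .low h1 h2 (by rwa [p h1 h2])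
    | up h1 h2 _ ih => exact .up h1 (by rwa [p ho h1]) (ih (op_up hA ho h1))
    | dn h1 h2 h3 _ ih => exact .dn h1 h2 (by rwa [p h1 h2]) (ih h1)
  · have := a o ho
    induction this with
    | sut h1 h2 h3 h4 => exact .sut h1 h2 h3 h4
    | hi h1 h2 h3 => exact .hi h1 h2 (by rwa [m h1 h2])
    | dn h1 h2 _ ih => exact .dn h1 (by rwa [m ho h1]) (ih (om_dn hA ho h1))
    | up h1 h2 h3 _ ih => exact .up h1 h2 (by rwa [m h1 h2]) (ih h1)

theorem om_sd {O : Ch P} : O ∈ Om (Ch.top ⁻¹' A) ↔ O.top ∈ Om A :=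
  ⟨fun ⟨h1, _, h2, h3⟩ => ⟨h1, _, h2, Ch.top_mono h3⟩,
    fun ⟨h1, a, h2, h3⟩ => ⟨h1, tp O a h3, by simpa using h2, le_tp _ _ _⟩⟩

theorem op_sd {O : Ch P} : O ∈ Op (Ch.top ⁻¹' A) ↔ O.top ∉ A ∧ ∃ a ∈ A, a ∈ O.1 :=
  ⟨fun ⟨h1, E, h2, h3⟩ => ⟨h1, _, h2, h3 E.top_mem⟩,
    fun ⟨h1, a, h2, h3⟩ => ⟨h1, Ch.pt a, by simpa using h2, Ch.pt_le.2 h3⟩⟩

theorem rm_sd (hA : A.OrdConnected) (hz : Coc A z) {o : P} (h : RM A z o) (ho : o ∈ Om A) :
    ∀ O : Ch P, O.top = o → RM (Ch.top ⁻¹' A) (pb Ch.top z) O := by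
  induction h with
  | @sut x a o h1 h2 h3 h4 =>
    rintro O rfl
    exact .sut (x := tp (tp O a h4) x (by simpa using h3)) (a := tp O a h4) (by simpa using h1)
      (by simpa using h2) (le_tp _ _ _) (le_tp _ _ _)
  | @hi x o h1 h2 h3 =>
    rintro O rfl
    exact .hi (x := tp O x h2) (om_sd.2 (by simpa using h1)) (le_tp _ _ _) (by simpa [pb] using h3)
  | @dn o p h1 h2 _ ih =>
    rintro O rfl
    have z0 : z O.top O.top = 0 := let ⟨_, _, ha, l⟩ := ho; hz.self ha (Or.inr l)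
    exact .dn (p := Ch.pt O.top) (Ch.pt_le.2 O.top_mem) (by simpa [pb] using z0)
      (.up (p := Ch.pr p _ h1) (om_sd.2 (by simpa using ho)) (Ch.pt_le.2 (by simp))
        (by simpa [pb] using z0) (.dn (p := Ch.pt p) (Ch.pt_le.2 (by simp)) (by simpa [pb] using h2)
          (ih (om_dn hA ho h1) _ (Ch.top_pt p))))
  | @up o p h1 h2 h3 _ ih =>
    rintro O rfl
    exact .up (p := tp O p h2) (om_sd.2 (by simpa using h1)) (le_tp _ _ _) (by simpa [pb] using h3)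
      (ih h1 _ (by simp))

theorem rp_join (hA : A.OrdConnected) (hN : Nice A) (hz : Coc A z) {O O' : Ch P}
    (h1 : O ∈ Op (Ch.top ⁻¹' A)) (h2 : O' ∈ Op (Ch.top ⁻¹' A)) (e : O.top = O'.top)
    (h : RP (Ch.top ⁻¹' A) (pb Ch.top z) O) : RP (Ch.top ⁻¹' A) (pb Ch.top z) O' := by
  obtain ⟨ho, a, ha, ha'⟩ := op_sd.1 h1
  obtain ⟨-, b, hb, hb'⟩ := op_sd.1 h2
  have z0 : z O.top O.top = 0 := hz.self ha (Or.inl (Ch.le_top ha'))
  have k : ∀ (C : Ch P) (c : P), c ∈ A → c ∈ C.1 → C.top = O.top →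
      (RP (Ch.top ⁻¹' A) (pb Ch.top z) C ↔
        ∀ l : c ≤ O.top, RP (Ch.top ⁻¹' A) (pb Ch.top z) (Ch.pr c _ l)) := fun C c c1 c2 c3 => by
    have l : c ≤ O.top := c3 ▸ Ch.le_top c2
    have l' : Ch.pr c _ l ≤ C := pr_le c2 (c3 ▸ C.top_mem)
    have z1 : pb Ch.top z (Ch.pr c _ l) C = 0 := by simpa [pb, c3] using z0
    exact ⟨fun r _ => .up l' z1 r,
      fun r => .dn (op_sd.2 ⟨by simpa using ho, c, c1, by simp⟩) l' z1 (r l)⟩
  have a1 : Cm a O.top := Or.inl (Ch.le_top ha')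
  have b1 : Cm b O.top := Or.inl (e ▸ Ch.le_top hb')
  refine (k O' b hb hb' e.symm).2 ((Nice.conn_fb hN Cm.rfl a ⟨ha, a1, a1⟩ b ⟨hb, b1, b1⟩).ind
    (p := fun c => ∀ l : c ≤ O.top, RP (Ch.top ⁻¹' A) (pb Ch.top z) (Ch.pr c _ l))
    ((k O a ha ha' rfl).1 h) fun c hc d hd l => ?_)
  have l' : d ≤ O.top := hd.2.1.resolve_right fun r => ho (hA.out ha hd.1 ⟨Ch.le_top ha', r⟩)
  let T := tp (Ch.pr c d l) O.top (by simpa using l')
  exact (k T c hc.1 (by simp [T]) (by simp [T])).symm.trans (k T d hd.1 (by simp [T]) (by simp [T]))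

theorem rp_sd (hA : A.OrdConnected) (hN : Nice A) (hz : Coc A z) {o : P} (h : RP A z o)
    (ho : o ∈ Op A) : ∀ O ∈ Op (Ch.top ⁻¹' A), O.top = o → RP (Ch.top ⁻¹' A) (pb Ch.top z) O := by
  have k : ∀ {x a o : P} (l : x ≤ a) (l' : a ≤ o), o ∉ A → x ∈ A ∨ a ∈ A →
      tp (Ch.pr x a l) o (by simpa using l') ∈ Op (Ch.top ⁻¹' A) := fun l l' h1 h2 =>
    op_sd.2 ⟨by simpa using h1, h2.elim (fun h => ⟨_, h, by simp⟩) fun h => ⟨_, h, by simp⟩⟩
  induction h with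
  | @sut x a o h1 h2 h3 h4 =>
    rintro O hO rfl
    exact rp_join hA hN hz (k h3 h4 ho.1 (.inr h2)) hO (by simp) (.sut (x := Ch.pt x)
      (a := Ch.pr x a h3) (by simpa using h1) (by simpa using h2) (Ch.pt_le.2 (by simp)) (le_tp _ _ _))
  | @low x o h1 h2 h3 =>
    rintro O hO rfl
    obtain ⟨x1, a, ha, l⟩ := h1
    exact rp_join hA hN hz (k l h2 ho.1 (.inl ha)) hO (by simp) (.low (x := Ch.pr a x l)
      (op_sd.2 ⟨by simpa using x1, a, ha, by simp⟩) (le_tp _ _ _) (by simpa [pb] using h3))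
  | @up o p h1 h2 _ ih =>
    rintro O hO rfl
    exact .up (p := tp O p h1) (le_tp _ _ _) (by simpa [pb] using h2) (ih (op_up hA ho h1) _
      (op_up (convex_pre Ch.top_mono hA) hO (le_tp _ _ _)) (by simp))
  | @dn o p h1 h2 h3 _ ih =>
    rintro O hO rfl
    obtain ⟨x1, a, ha, l⟩ := id h1
    have m : Ch.pr a p l ∈ Op (Ch.top ⁻¹' A) := op_sd.2 ⟨by simpa using x1, a, ha, by simp⟩
    exact rp_join hA hN hz (k l h2 ho.1 (.inl ha)) hO (by simp)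
      (.dn m (le_tp _ _ _) (by simpa [pb] using h3) (ih h1 _ m (by simp)))

theorem four_sd (hA : A.OrdConnected) (hN : Nice A) (hz : Coc A z) :
    Four A z (Ch.top ⁻¹' A) (pb Ch.top z) := by
  refine ⟨fun a C D hD k => a _ _ (om_sd.1 hD) (Ch.top_mono k), fun a O hO Y hY k l => ?_,
    fun a O hO => ?_, fun a O hO => rm_sd hA hz (a _ (om_sd.1 hO)) (om_sd.1 hO) O rfl⟩
  · have := a _ (om_sd.1 hO) _ (om_sd.1 hY) (Ch.top_mono k) l
    have e : {y | y ∈ Om A ∧ O.top ≤ y ∧ 0 < z O.top y} =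
        {e | e ∈ {y | y ∈ Om A ∧ 0 < z O.top y} ∧ O.top ≤ e} :=
      Set.ext fun _ => ⟨fun h => ⟨⟨h.1, h.2.2⟩, h.2.1⟩, fun h => ⟨h.1.1, h.2, h.1.2⟩⟩
    rw [e, ← (ws_up O _).ctr_iff] at this
    convert this using 2
    ext C
    exact ⟨fun h => ⟨h.2.1, om_sd.1 h.1, h.2.2⟩, fun h => ⟨om_sd.2 h.2.1, h.1, h.2.2⟩⟩
  · have ho : O.top ∈ Op A := let ⟨h1, b, hb, l⟩ := op_sd.1 hO; ⟨h1, b, hb, Ch.le_top l⟩
    exact rp_sd hA hN hz (a _ ho) ho O hO rfl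

end

theorem four_desc {s t : St} {f : t.P → s.P} {z : s.P → s.P → ℤ} (hs : Good s) (hz : Coc s.A z)
    (h : Desc s t f) : Four s.A z t.A (pb f z) := by
  induction h with
  | refl => exact ⟨id, id, id, id⟩
  | step h ih =>
    have g := Good.desc hs h
    obtain ⟨a, b, c, d⟩ := four_sd g.conv g.nice (h.A_eq ▸ hz.pb h.mono)
    exact ⟨a ∘ ih.1, b ∘ ih.2.1, c ∘ ih.2.2.1, d ∘ ih.2.2.2⟩

theorem bdyStmt : BdyStmt := fun _ _ _ _ _ hs hz h e =>
  let ⟨a, b, c, d⟩ := four_eqv (Good.desc hs h).conv e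
  let ⟨a', b', c', d'⟩ := four_desc hs hz h
  ⟨a ∘ a', b ∘ b', c ∘ c', d ∘ d'⟩

end Crest.Agent.X212.Hlf24
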