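import Crest.Agent.X212.Cut21.Leaf

/-!
# X212 / Hlf24 (helper24): halving the jumps, thickening
-/

set_option autoImplicit false
set_option linter.unusedSectionVars false

open Finset Classical

noncomputable section

namespace Crest.Agent.X212.Hlf24

open Crest.Agent.X212.Hp13 Crest.Agent.X212.Alg36 Crest.Agent.X212.Cut21

section

variable {P : Type} [PartialOrder P] [Fintype P] {A : Set P} {z : P → P → ℤ} {δ : Ch P → ℤ}

/-- jumps from `O₋` into `A` are at most one -/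
def JM (A : Set P) (z : P → P → ℤ) : Prop := ∀ x, x ∉ A → ∀ a ∈ A, x ≤ a → z x a ≤ 1

theorem jk_of (h1 : JO A z) (h2 : JM A z) (h3 : JA A z 1) : JK A z := fun x y hy k =>
  hy.elim (fun hy => (Classical.em (x ∈ A)).elim (fun hx => h3 x hx y hy k) fun hx => h2 x hx y hy k)
    fun hy => h1 x y hy k

theorem conv2 (hA : A.OrdConnected) : (A2 A).OrdConnected :=
  convex_pre Ch.top_mono (convex_pre Ch.top_mono hA)

theorem jo_rf (h : InR A z δ) (hA : A.OrdConnected) (hz : Coc A z) (hm : Mono A z) (hj : JO A z) :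
    JO (A2 A) (rf δ z) := fun C D hD k => by
  obtain ⟨h1, E, hE, h2⟩ := hD
  rw [← (h.eqv hz hm).off (dp_hi hE k h2) (not_dn (conv2 hA) hE h2 h1 k) h1]
  exact hj _ _ ⟨h1, _, hE, Ch.top_mono (Ch.top_mono h2)⟩ (Ch.top_mono (Ch.top_mono k))

theorem jm_rf (hl : LowM A z δ) (h : InR A z δ) (hA : A.OrdConnected) (hz : Coc A z)
    (hm : Mono A z) (hj : JO A z) : JM (A2 A) (rf δ z) := fun X hX C hC k => by
  obtain ⟨M, m1, m2, m3, m4⟩ := hl.max h hA hz hm hC hX k
  rw [(tri3 hC (m4 X hX k) m2).add (coc_rf hz δ), m3, add_zero]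
  exact jo_rf h hA hz hm hj X M ⟨m1, C, hC, m2⟩ (m4 X hX k)

theorem ja_rf (h : InR A z δ) (hA : A.OrdConnected) (hz : Coc A z) (hm : Mono A z) {N : ℤ}
    (hN : ∀ d : Ch P, d.top ∈ A → δ d ≤ N ∧ z d.bot d.top - δ d ≤ N) : JA (A2 A) (rf δ z) N := by
  intro C hC D hD k
  have he : Dom A D.top := Mt.dom ⟨_, D.top.top_mem, hD⟩
  obtain ⟨u, hu⟩ := exists_chart hz he
  obtain ⟨d, hd, e⟩ := hu.ex_vv δ (C := D) le_rfl
  have c1 : C.top ≤ D.top := Ch.top_mono k
  have d1 : d ≤ D.top := Ch.le_top hd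
  have v := hu.le_vv (δ := δ) c1 C.top_mem
  rw [hu.rf le_rfl k, e]
  rcases D.total (k C.top_mem) hd with a | a
  · have h1 := (hN d (hA.out hC hD ⟨Ch.top_mono a, Ch.top_mono d1⟩)).2
    rw [hu _ (d1 d.bot_mem) _ (d1 d.top_mem) d.bot_le_top] at h1
    have h2 := hu.le hm he (d1 d.bot_mem) (c1 C.top.bot_mem) (Ch.bot_anti a)
    have h3 := h.le_mu he hu c1
    have h4 : mu δ u d = u d.top - δ d := rfl
    omega
  · have h1 := (hN _ hC).1
    have h2 := hu.le hm he (d1 d.top_mem) (c1 C.top.top_mem) (Ch.top_mono a)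
    have h3 := h.mu_le (u := u) he d1
    have h4 : mu δ u C.top = u C.top.top - δ C.top := rfl
    omega

end

theorem thkStmt : ThkStmt := fun _ _ hs hz hm hj =>
  jk_of (jo_rf (inR_dT hm) hs.conv hz hm hj.jo) (jm_rf lowM_dT (inR_dT hm) hs.conv hz hm hj.jo)
    (ja_rf (inR_dT hm) hs.conv hz hm fun d hd => by
      have := hj _ _ (Or.inl hd) d.bot_le_top
      rw [dT, if_pos hd]; omega)

/-- the conclusion of `Half2Stmt` -/
def Out (s : St) (z : s.P → s.P → ℤ) : Prop :=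
  ∃ t f w, Desc s t f ∧ Mono t.A w ∧ Eqv t.A (pb f z) w ∧ chi t.A w = chi s.A z ∧
    JK t.A w ∧ (NC s.A z → NC t.A w) ∧ (CondP s.A z → CondP t.A w)

theorem out_step {s : St} {z : s.P → s.P → ℤ} (hs : Good s) (hz : Coc s.A z) (hm : Mono s.A z)
    (h : Out s.sd.sd (hlv s.A z)) : Out s z := by
  obtain ⟨t, f, w, h1, h2, h3, h4, h5, h6, h7⟩ := h
  obtain ⟨r1, -, r3, r4, r5⟩ := refStmt s z _ hs.conv (Good.sd (Good.sd hs)).mf hz hm (inR_dH hm)
  have r := r1.pb h1.mono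
  rw [← h1.A_eq] at r
  exact ⟨t, _, w, (Desc.sd s).step.trans h1, h2, r.trans h3, h4.trans r3, h5,
    fun a => h6 (r4 a), fun a => h7 (r5 a)⟩

theorem out_ja (n : ℕ) : ∀ (s : St) (z : s.P → s.P → ℤ), Good s → Coc s.A z → Mono s.A z →
    JO s.A z → JM s.A z → JA s.A z (n + 1) → Out s z := by
  induction n with
  | zero =>
    exact fun s z _ _ hm h1 h2 h3 =>
      ⟨s, id, z, .refl, hm, Eqv.rfl, rfl, jk_of h1 h2 (by simpa using h3), id, id⟩
  | succ n ih =>
    intro s z hs hz hm h1 h2 h3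
    refine out_step hs hz hm (ih _ _ (Good.sd (Good.sd hs)) (coc_rf hz _) (mono_rf hz _)
      (jo_rf (inR_dH hm) hs.conv hz hm h1) (jm_rf lowM_dH (inR_dH hm) hs.conv hz hm h1)
      (ja_rf (inR_dH hm) hs.conv hz hm fun d hd => ?_))
    rw [dH, if_pos hd]
    split_ifs with hb
    · have := h3 _ hb _ hd d.bot_le_top
      push_cast at this
      omega
    · have := h2 _ hb _ hd d.bot_le_top
      omega

theorem half2Stmt : Half2Stmt := fun s z hs hz hm h1 => by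
  obtain ⟨N, hN⟩ := (Set.finite_range fun p : s.sd.sd.P × s.sd.sd.P => hlv s.A z p.1 p.2).bddAbove
  exact out_step hs hz hm (out_ja N.toNat _ _ (Good.sd (Good.sd hs)) (coc_rf hz _) (mono_rf hz _)
    (jo_rf (inR_dH hm) hs.conv hz hm h1) (jm_rf lowM_dH (inR_dH hm) hs.conv hz hm h1)
    fun x _ y _ _ => (hN ⟨(x, y), rfl⟩).trans (by omega))

end Crest.Agent.X212.Hlf24
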